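import Mathlib

/-!
Harmonic decomposition of polynomials.
-/

namespace Vale.Agent.P225

open MvPolynomial

variable {n : ℕ}

/-- The algebraic Laplacian. -/
noncomputable def lap : MvPolynomial (Fin n) ℝ →ₗ[ℝ] MvPolynomial (Fin n) ℝ :=
  ∑ i, ((pderiv i).toLinearMap).comp (pderiv i).toLinearMap

/-- The sum of the squared variables. -/
noncomputable def sq (n : ℕ) : MvPolynomial (Fin n) ℝ := ∑ i, X i * X i

theorem lap_apply (p : MvPolynomial (Fin n) ℝ) : lap p = ∑ i, pderiv i (pderiv i p) := by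
  simp [lap]

theorem pderiv_sq (i : Fin n) : pderiv i (sq n) = C 2 * X i := by
  rw [sq, map_sum, Finset.sum_eq_single i]
  · rw [pderiv_mul, pderiv_X_self]
    rw [map_ofNat]
    ring
  · intro j _ hj
    rw [pderiv_mul, pderiv_X_of_ne hj]
    ring
  · simp

theorem sq_ne_zero (hn : 1 ≤ n) : sq n ≠ 0 := by
  intro h
  have := congrArg (eval fun _ => (1 : ℝ)) h
  simp [sq] at this
  omega

theorem isHomogeneous_sq : (sq n).IsHomogeneous 2 :=
  IsHomogeneous.sum _ _ _ fun i _ => (isHomogeneous_X ℝ i).mul (isHomogeneous_X ℝ i)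

theorem isHomogeneous_lap {p : MvPolynomial (Fin n) ℝ} {d : ℕ} (h : p.IsHomogeneous d) :
    (lap p).IsHomogeneous (d - 2) := by
  rw [lap_apply]
  refine IsHomogeneous.sum _ _ _ fun i _ => ?_
  have := (h.pderiv (i := i)).pderiv (i := i)
  rwa [Nat.sub_sub] at this

theorem lap_eq_zero_of_lt {p : MvPolynomial (Fin n) ℝ} {d : ℕ} (h : p.IsHomogeneous d)
    (hd : d < 2) : lap p = 0 := by
  rw [lap_apply]
  refine Finset.sum_eq_zero fun i _ => ?_
  have h1 := h.pderiv (i := i)
  rw [show d - 1 = 0 by omega, ← totalDegree_zero_iff_isHomogeneous,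
    totalDegree_eq_zero_iff_eq_C] at h1
  rw [h1, pderiv_C]

theorem lap_sq_mul {Q : MvPolynomial (Fin n) ℝ} {d : ℕ} (h : Q.IsHomogeneous d) :
    lap (sq n * Q) = C (2 * n + 4 * d : ℝ) * Q + sq n * lap Q := by
  have e : ∀ i, pderiv i (pderiv i (sq n * Q))
      = C 2 * Q + C 4 * (X i * pderiv i Q) + sq n * pderiv i (pderiv i Q) := by
    intro i
    simp only [pderiv_mul, pderiv_sq, map_add, pderiv_C, pderiv_X_self]
    simp only [map_ofNat]
    ring
  simp only [lap_apply, e, Finset.sum_add_distrib, ← Finset.mul_sum, h.sum_X_mul_pderiv]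
  simp only [Finset.sum_const, Finset.card_univ, Fintype.card_fin, nsmul_eq_mul, map_add, map_mul,
    map_natCast, map_ofNat]
  ring

/-- The constant in `lap (sq ^ (m + 1) * Q) = coef m * sq ^ m * Q + sq ^ (m + 1) * lap Q`. -/
noncomputable def coef (n d : ℕ) : ℕ → ℝ
  | 0 => 2 * n + 4 * d
  | m + 1 => 2 * n + 4 * ((2 * (m + 1) + d : ℕ) : ℝ) + coef n d m

theorem coef_pos (hn : 1 ≤ n) (d : ℕ) : ∀ m, 0 < coef n d m
  | 0 => by
      have : (1 : ℝ) ≤ n := by exact_mod_cast hn
      have : (0 : ℝ) ≤ d := Nat.cast_nonneg d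
      simp only [coef]; linarith
  | m + 1 => by
      have := coef_pos hn d m
      simp only [coef]; positivity

theorem isHomogeneous_sq_pow (m : ℕ) : (sq n ^ m).IsHomogeneous (2 * m) :=
  isHomogeneous_sq.pow m

theorem lap_sq_pow_mul {Q : MvPolynomial (Fin n) ℝ} {d : ℕ} (h : Q.IsHomogeneous d) :
    ∀ m, lap (sq n ^ (m + 1) * Q) = C (coef n d m) * (sq n ^ m * Q) + sq n ^ (m + 1) * lap Q
  | 0 => by
      rw [zero_add, pow_one, pow_zero, one_mul, lap_sq_mul h]
      rfl
  | m + 1 => by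
      rw [show sq n ^ (m + 1 + 1) * Q = sq n * (sq n ^ (m + 1) * Q) by ring,
        lap_sq_mul ((isHomogeneous_sq_pow (m + 1)).mul h), lap_sq_pow_mul h m]
      simp only [coef, map_add]
      ring

theorem lap_sq_pow_inj (hn : 1 ≤ n) : ∀ (d : ℕ) (Q : MvPolynomial (Fin n) ℝ),
    Q.IsHomogeneous d → ∀ m, lap (sq n ^ (m + 1) * Q) = 0 → Q = 0 := by
  intro d
  induction d using Nat.strong_induction_on with
  | _ d ih =>
      intro Q hQ m h
      rw [lap_sq_pow_mul hQ m] at h
      have h1 : sq n ^ m * (C (coef n d m) * Q + sq n * lap Q) = 0 := by rw [← h]; ring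
      have h2 := (mul_eq_zero.mp h1).resolve_left (pow_ne_zero _ (sq_ne_zero hn))
      by_cases hd : d < 2
      · rw [lap_eq_zero_of_lt hQ hd, mul_zero, add_zero] at h2
        exact (mul_eq_zero.mp h2).resolve_left (by simp [(coef_pos hn d m).ne'])
      · have h4 : lap (sq n ^ (m + 1 + 1) * lap Q) = 0 := by
          have e : sq n ^ (m + 1 + 1) * lap Q = (-coef n d m) • (sq n ^ (m + 1) * Q) := by
            rw [smul_eq_C_mul, map_neg]
            linear_combination (sq n ^ (m + 1)) * h2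
          rw [e, map_smul, lap_sq_pow_mul hQ m, h, smul_zero]
        rw [ih (d - 2) (by omega) _ (isHomogeneous_lap hQ) (m + 1) h4, mul_zero, add_zero] at h2
        exact (mul_eq_zero.mp h2).resolve_left (by simp [(coef_pos hn d m).ne'])

theorem harmonic_split (hn : 1 ≤ n) {p : MvPolynomial (Fin n) ℝ} {j : ℕ}
    (h : p.IsHomogeneous (j + 2)) :
    ∃ q : MvPolynomial (Fin n) ℝ, q.IsHomogeneous j ∧ lap (p - sq n * q) = 0 := by
  haveI : Module.Finite ℝ (homogeneousSubmodule (Fin n) ℝ j) :=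
    Module.Finite.iff_fg.mpr (homogeneousSubmodule_fg (Fin n) ℝ j)
  have hmem : ∀ q ∈ homogeneousSubmodule (Fin n) ℝ j,
      lap.comp (LinearMap.mulLeft ℝ (sq n)) q ∈ homogeneousSubmodule (Fin n) ℝ j := by
    intro q hq
    have h' := isHomogeneous_lap (isHomogeneous_sq.mul ((mem_homogeneousSubmodule j q).mp hq))
    rw [show 2 + j - 2 = j by omega] at h'
    exact (mem_homogeneousSubmodule j _).mpr h'
  set T := (lap.comp (LinearMap.mulLeft ℝ (sq n))).restrict hmem
  have hinj : Function.Injective T := by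
    refine (injective_iff_map_eq_zero _).mpr fun q hq => ?_
    have h0 : lap (sq n ^ (0 + 1) * (q : MvPolynomial (Fin n) ℝ)) = 0 := by
      have := congrArg Subtype.val hq
      simpa [T] using this
    exact Subtype.ext (lap_sq_pow_inj hn j _ ((mem_homogeneousSubmodule j _).mp q.2) 0 h0)
  have hl : lap p ∈ homogeneousSubmodule (Fin n) ℝ j := by
    have := isHomogeneous_lap h
    simpa using this
  obtain ⟨q, hq⟩ := (LinearMap.injective_iff_surjective.mp hinj) ⟨lap p, hl⟩
  refine ⟨q, (mem_homogeneousSubmodule j _).mp q.2, ?_⟩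
  have := congrArg Subtype.val hq
  simp [T] at this
  rw [map_sub, this, sub_self]

end Vale.Agent.P225
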