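import Mathlib

/-!
Integration by parts for rotation fields on the unit sphere.
-/

namespace Vale.Agent.P225

open MeasureTheory Set Metric Filter
open scoped Topology ContDiff RealInnerProductSpace

variable {n : ℕ}

/-- Euclidean space. -/
abbrev Euc (n : ℕ) : Type := EuclideanSpace ℝ (Fin n)

/-- The measure on the unit sphere. -/
noncomputable def sph (n : ℕ) : Measure (sphere (0 : Euc n) 1) :=
  (volume : Measure (Euc n)).toSphere

instance : IsFiniteMeasure (sph n) := by unfold sph; infer_instance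

theorem polar_formula [NeZero n] {G : Euc n → ℝ} (hc : Continuous G) (hs : HasCompactSupport G) :
    ∫ x, G x = ∫ r : Ioi (0 : ℝ), ∫ θ, G ((r : ℝ) • (θ : Euc n)) ∂sph n
      ∂Measure.volumeIoiPow (Module.finrank ℝ (Euc n) - 1) := by
  have h0 : ∫ x, G x
      = ∫ x : ({0}ᶜ : Set (Euc n)), G x ∂(volume : Measure (Euc n)).comap Subtype.val := by
    rw [integral_subtype_comap (measurableSet_singleton _).compl (μ := volume) (fun x => G x),
      restrict_compl_singleton]
  have hint : Integrable (fun x : ({0}ᶜ : Set (Euc n)) => G x)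
      ((volume : Measure (Euc n)).comap Subtype.val) :=
    (MeasurableEmbedding.subtype_coe (measurableSet_singleton _).compl).integrable_map_iff.mp (by
      rw [map_comap_subtype_coe (measurableSet_singleton _).compl]
      exact (hc.integrable_of_hasCompactSupport hs).restrict)
  have hmp := (volume : Measure (Euc n)).measurePreserving_homeomorphUnitSphereProd
  have he := (homeomorphUnitSphereProd (Euc n)).measurableEmbedding
  have h1 : ∀ x : ({0}ᶜ : Set (Euc n)), G x = G (((homeomorphUnitSphereProd (Euc n) x).2 : ℝ) •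
      ((homeomorphUnitSphereProd (Euc n) x).1 : Euc n)) := fun x => by
    congr 1
    have hne : ‖(x : Euc n)‖ ≠ 0 := norm_ne_zero_iff.mpr x.2
    simp [homeomorphUnitSphereProd, smul_smul, hne]
  set F := fun p : sphere (0 : Euc n) 1 × Ioi (0 : ℝ) => G ((p.2 : ℝ) • (p.1 : Euc n))
  have h2 : Integrable F ((sph n).prod (Measure.volumeIoiPow (Module.finrank ℝ (Euc n) - 1))) := by
    rw [sph, ← hmp.integrable_comp_emb he]
    exact hint.congr (Eventually.of_forall h1)
  rw [h0, ← integral_prod_symm F h2]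
  exact (integral_congr_ae (Eventually.of_forall h1)).trans (hmp.integral_comp he F)

theorem volumeIoiPow_Ico_pos (m : ℕ) {a b : Ioi (0 : ℝ)} (h : (a : ℝ) < b) :
    0 < Measure.volumeIoiPow m (Ico a b) := by
  refine pos_iff_ne_zero.mpr fun h0 => ?_
  have h1 : Measure.volumeIoiPow m (Iio b) ≤ Measure.volumeIoiPow m (Iio a) := by
    refine (measure_mono (Iio_subset_Iio_union_Ico (a := a) (b := b))).trans ((measure_union_le _ _).trans ?_)
    rw [h0, add_zero]
  rw [Measure.volumeIoiPow_apply_Iio, Measure.volumeIoiPow_apply_Iio,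
    ENNReal.ofReal_le_ofReal_iff (by have : (0 : ℝ) < a := a.2; positivity)] at h1
  have h2 := pow_lt_pow_left₀ h (le_of_lt a.2) (Nat.succ_ne_zero m)
  rw [div_le_div_iff_of_pos_right (by positivity)] at h1
  exact absurd h2 (not_lt.mpr h1)

/-- The coordinate vector. -/
noncomputable def unitVec (i : Fin n) : Euc n := EuclideanSpace.single i 1

/-- The rotation field `x_i ∂_j - x_j ∂_i` applied to `g`. -/
noncomputable def rot (i j : Fin n) (g : Euc n → ℝ) (x : Euc n) : ℝ :=
  x i * fderiv ℝ g x (unitVec j) - x j * fderiv ℝ g x (unitVec i)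

theorem continuous_rot {g : Euc n → ℝ} (hg : ContDiff ℝ 1 g) (i j : Fin n) :
    Continuous (rot i j g) := by
  have h : ∀ v : Euc n, Continuous fun x => fderiv ℝ g x v := fun v =>
    (hg.continuous_fderiv one_ne_zero).clm_apply continuous_const
  exact ((PiLp.continuous_apply 2 _ i).mul (h _)).sub ((PiLp.continuous_apply 2 _ j).mul (h _))

theorem hasFDerivAt_coord (i : Fin n) (x : Euc n) :
    HasFDerivAt (fun y : Euc n => y i) (EuclideanSpace.proj i : StrongDual ℝ (Euc n)) x :=
  (EuclideanSpace.proj i : StrongDual ℝ (Euc n)).hasFDerivAt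

theorem integral_rot_mul_radial {g : Euc n → ℝ} (hg : ContDiff ℝ 1 g) (i j : Fin n) {ψ : ℝ → ℝ}
    (hψ : ContDiff ℝ 1 ψ) (hψs : HasCompactSupport ψ) :
    ∫ x, rot i j g x * ψ (‖x‖ ^ 2) = 0 := by
  rcases eq_or_ne i j with rfl | hij
  · simp [rot]
  set W : Euc n → ℝ := fun x => ψ (‖x‖ ^ 2)
  have hW : ContDiff ℝ 1 W := hψ.comp (contDiff_norm_sq ℝ)
  have hWs : HasCompactSupport W := by
    obtain ⟨R, hR⟩ := hψs.isCompact.isBounded.subset_closedBall 0
    refine HasCompactSupport.of_support_subset_isCompact (isCompact_closedBall (0 : Euc n)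
      (|R| + 1)) fun x hx => ?_
    have h := hR (subset_tsupport _ (show ‖x‖ ^ 2 ∈ Function.support ψ from hx))
    simp only [mem_closedBall, dist_zero_right, Real.norm_eq_abs, abs_pow, abs_norm] at h ⊢
    nlinarith [norm_nonneg x, le_abs_self R, abs_nonneg R]
  have hpart : ∀ a b : Fin n, a ≠ b → ∫ x, (x a * W x) * fderiv ℝ g x (unitVec b)
      = - ∫ x, x a * fderiv ℝ W x (unitVec b) * g x := by
    intro a b hab
    have hd : Differentiable ℝ fun x : Euc n => x a * W x :=
      fun x => (hasFDerivAt_coord a x).differentiableAt.mul (hW.differentiable one_ne_zero x)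
    have e : ∀ x : Euc n, fderiv ℝ (fun y : Euc n => y a * W y) x (unitVec b)
        = x a * fderiv ℝ W x (unitVec b) := by
      intro x
      have h := ((hasFDerivAt_coord a x).fun_mul (hW.differentiable one_ne_zero x).hasFDerivAt)
      rw [h.fderiv]
      simp [unitVec, PiLp.proj_apply, hab]
    rw [integral_mul_fderiv_eq_neg_fderiv_mul_of_integrable]
    · simp only [e]
    · simp only [e]
      refine (((PiLp.continuous_apply 2 _ a).mul ((hW.continuous_fderiv one_ne_zero).clm_apply
        continuous_const)).mul hg.continuous).integrable_of_hasCompactSupport ?_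
      exact ((hWs.fderiv_apply ℝ (unitVec b)).mul_left).mul_right
    · exact (((PiLp.continuous_apply 2 _ a).mul hW.continuous).mul
        ((hg.continuous_fderiv one_ne_zero).clm_apply continuous_const)).integrable_of_hasCompactSupport
        (hWs.mul_left.mul_right)
    · exact (((PiLp.continuous_apply 2 _ a).mul hW.continuous).mul
        hg.continuous).integrable_of_hasCompactSupport (hWs.mul_left.mul_right)
    · exact fun x _ => hd x
    · exact fun x _ => hg.differentiable one_ne_zero x
  have hcancel : ∀ x : Euc n, x i * fderiv ℝ W x (unitVec j) = x j * fderiv ℝ W x (unitVec i) := by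
    intro x
    have hn : HasFDerivAt (fun y : Euc n => ‖y‖ ^ 2) (2 • (innerSL ℝ x)) x :=
      (hasStrictFDerivAt_norm_sq x).hasFDerivAt
    have h := (hψ.differentiable one_ne_zero (‖x‖ ^ 2)).hasDerivAt.comp_hasFDerivAt x hn
    have e : fderiv ℝ W x = deriv ψ (‖x‖ ^ 2) • (2 • innerSL ℝ x) := h.fderiv
    rw [e]
    simp [unitVec, EuclideanSpace.inner_single_right]
    ring
  have hi : ∀ a b : Fin n, Integrable fun x : Euc n => (x a * W x) * fderiv ℝ g x (unitVec b) :=
    fun a b => (((PiLp.continuous_apply 2 _ a).mul hW.continuous).mul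
      ((hg.continuous_fderiv one_ne_zero).clm_apply continuous_const)).integrable_of_hasCompactSupport
      (hWs.mul_left.mul_right)
  calc ∫ x, rot i j g x * ψ (‖x‖ ^ 2)
      = ∫ x, ((x i * W x) * fderiv ℝ g x (unitVec j) - (x j * W x) * fderiv ℝ g x (unitVec i)) :=
        integral_congr_ae (Eventually.of_forall fun x => by simp only [rot, W]; ring)
    _ = 0 := by
        rw [integral_sub (hi i j) (hi j i), hpart i j hij, hpart j i hij.symm]
        simp only [hcancel]
        ring

theorem integral_rot_eq_zero [NeZero n] {g : Euc n → ℝ} (hg : ContDiff ℝ 1 g) (i j : Fin n) :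
    ∫ θ, rot i j g (θ : Euc n) ∂sph n = 0 := by
  set K : ℝ → ℝ := fun r => ∫ θ, rot i j g (r • (θ : Euc n)) ∂sph n with hK
  have hKc : Continuous K := by
    haveI : CompactSpace (sphere (0 : Euc n) 1) :=
      isCompact_iff_compactSpace.mp (isCompact_sphere _ _)
    have : Continuous (Function.uncurry fun (r : ℝ) (θ : sphere (0 : Euc n) 1) =>
        rot i j g (r • (θ : Euc n))) :=
      (continuous_rot hg i j).comp (continuous_fst.smul (continuous_subtype_val.comp continuous_snd))
    simpa [hK] using continuous_parametric_integral_of_continuous (μ := sph n) this isCompact_univ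
  have h1 : K 1 = ∫ θ, rot i j g (θ : Euc n) ∂sph n := by simp [hK]
  rw [← h1]
  by_contra hne
  obtain ⟨s, hs, hpos⟩ : ∃ s : ℝ, (s = 1 ∨ s = -1) ∧ 0 < s * K 1 := by
    rcases lt_or_gt_of_ne hne with h | h
    · exact ⟨-1, Or.inr rfl, by linarith⟩
    · exact ⟨1, Or.inl rfl, by linarith⟩
  obtain ⟨δ, hδ, hδK⟩ := Metric.eventually_nhds_iff.mp
    (((continuous_const.mul hKc).continuousAt (x := (1 : ℝ))).eventually (eventually_gt_nhds hpos) :
      ∀ᶠ r in 𝓝 (1 : ℝ), (0 : ℝ) < s * K r)
  set η := min δ (1 / 2)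
  have hη : 0 < η := lt_min hδ (by norm_num)
  set ψ : ContDiffBump (1 : ℝ) := ⟨η / 4, η / 2, by linarith, by linarith⟩
  have h0 := integral_rot_mul_radial hg i j (ψ := fun t => ψ t) ψ.contDiff ψ.hasCompactSupport
  have hcG : Continuous fun x : Euc n => rot i j g x * ψ (‖x‖ ^ 2) :=
    (continuous_rot hg i j).mul (ψ.continuous.comp (continuous_norm.pow 2))
  have hsG : HasCompactSupport fun x : Euc n => rot i j g x * ψ (‖x‖ ^ 2) := by
    refine HasCompactSupport.of_support_subset_isCompact (isCompact_closedBall (0 : Euc n) 2)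
      fun x hx => ?_
    have h : ψ (‖x‖ ^ 2) ≠ 0 := right_ne_zero_of_mul hx
    have h' : ‖x‖ ^ 2 ∈ Metric.ball (1 : ℝ) (η / 2) := by
      rw [← ψ.support_eq]; exact h
    rw [Metric.mem_ball, Real.dist_eq, abs_lt] at h'
    rw [mem_closedBall, dist_zero_right]
    nlinarith [norm_nonneg x, min_le_right δ (1 / 2 : ℝ)]
  rw [polar_formula hcG hsG] at h0
  set ν := Measure.volumeIoiPow (Module.finrank ℝ (Euc n) - 1)
  have hnorm : ∀ (r : Ioi (0 : ℝ)) (θ : sphere (0 : Euc n) 1),
      ‖(r : ℝ) • (θ : Euc n)‖ ^ 2 = (r : ℝ) ^ 2 := fun r θ => by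
    simp [norm_smul]
  simp only [hnorm, integral_mul_const] at h0
  set φ : Ioi (0 : ℝ) → ℝ := fun r => s * K r * ψ ((r : ℝ) ^ 2)
  have hnear : ∀ r : Ioi (0 : ℝ), ψ ((r : ℝ) ^ 2) ≠ 0 → 0 < s * K r ∧ (r : ℝ) < 2 := by
    intro r hr
    have h' : (r : ℝ) ^ 2 ∈ Metric.ball (1 : ℝ) (η / 2) := by
      rw [← ψ.support_eq]; exact hr
    rw [Metric.mem_ball, Real.dist_eq, abs_lt] at h'
    have hr0 : (0 : ℝ) < r := r.2
    have hd1 : (r : ℝ) - 1 < η := by nlinarith
    have hd2 : -η < (r : ℝ) - 1 := by nlinarith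
    refine ⟨hδK ?_, by linarith [min_le_right δ (1 / 2 : ℝ)]⟩
    rw [Real.dist_eq, abs_lt]
    constructor <;> linarith [min_le_left δ (1 / 2 : ℝ)]
  have hnn : 0 ≤ φ := fun r => by
    rcases eq_or_ne (ψ ((r : ℝ) ^ 2)) 0 with h | h
    · simp [φ, h]
    · exact (mul_nonneg (hnear r h).1.le ψ.nonneg)
  have hφc : Continuous φ :=
    (continuous_const.mul (hKc.comp continuous_subtype_val)).mul
      (ψ.continuous.comp (continuous_subtype_val.pow 2))
  have hint : Integrable φ ν := by
    obtain ⟨B, hB⟩ := (isCompact_Icc (a := (0 : ℝ)) (b := 2)).exists_bound_of_continuousOn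
      (hKc.continuousOn)
    set two : Ioi (0 : ℝ) := ⟨2, by norm_num⟩
    have hfin : ν (Iio two) ≠ ⊤ := by simp [ν, Measure.volumeIoiPow_apply_Iio]
    refine Integrable.mono' (g := (Iio two).indicator fun _ => |s| * B)
      ((integrable_indicator_iff measurableSet_Iio).mpr (integrableOn_const hfin))
      hφc.aestronglyMeasurable (Eventually.of_forall fun r => ?_)
    rcases eq_or_ne (ψ ((r : ℝ) ^ 2)) 0 with h | h
    · simp only [φ, h, mul_zero, norm_zero]
      refine indicator_nonneg (fun x _ => mul_nonneg (abs_nonneg _) ?_) r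
      exact (norm_nonneg _).trans (hB 0 (by norm_num))
    · have h2 := (hnear r h).2
      rw [indicator_of_mem (show r ∈ Iio two from h2), norm_mul, norm_mul, Real.norm_eq_abs s,
        Real.norm_of_nonneg ψ.nonneg]
      calc |s| * ‖K r‖ * ψ ((r : ℝ) ^ 2) ≤ |s| * B * 1 :=
            mul_le_mul (mul_le_mul_of_nonneg_left (hB r ⟨(le_of_lt r.2), h2.le⟩) (abs_nonneg _))
              ψ.le_one ψ.nonneg (mul_nonneg (abs_nonneg _)
                ((norm_nonneg _).trans (hB 0 (by norm_num))))
        _ = |s| * B := mul_one _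
  have hgt : 0 < ∫ r, φ r ∂ν := by
    rw [integral_pos_iff_support_of_nonneg hnn hint]
    set a : Ioi (0 : ℝ) := ⟨1, by norm_num⟩
    set b : Ioi (0 : ℝ) := ⟨1 + η / 16, by simp; linarith⟩
    refine (volumeIoiPow_Ico_pos _ (show (a : ℝ) < b by simp [a, b]; linarith)).trans_le
      (measure_mono fun r hr => ?_)
    have ha : (1 : ℝ) ≤ r := hr.1
    have hb : (r : ℝ) < 1 + η / 16 := hr.2
    have hψ : ψ ((r : ℝ) ^ 2) = 1 := ψ.one_of_mem_closedBall (by
      rw [mem_closedBall, Real.dist_eq, abs_le, show ψ.rIn = η / 4 from rfl]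
      have : η ≤ 1 / 2 := min_le_right δ (1 / 2 : ℝ)
      constructor <;> nlinarith)
    have : 0 < φ r := by
      simp only [φ, hψ, mul_one]
      refine (hnear r ?_).1
      rw [hψ]; exact one_ne_zero
    exact this.ne'
  have hzero : ∫ r, φ r ∂ν = 0 := by
    simp only [φ, mul_assoc]
    rw [integral_const_mul]
    simp only [hK]
    rw [h0, mul_zero]
  linarith

theorem rot_symm_integral [NeZero n] {g h : Euc n → ℝ} (hg : ContDiff ℝ 1 g) (hh : ContDiff ℝ 1 h)
    (i j : Fin n) :
    ∫ θ, rot i j g (θ : Euc n) * h θ ∂sph n = -∫ θ, g (θ : Euc n) * rot i j h θ ∂sph n := by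
  haveI : CompactSpace (sphere (0 : Euc n) 1) :=
    isCompact_iff_compactSpace.mp (isCompact_sphere _ _)
  have hi : ∀ {G : Euc n → ℝ}, Continuous G →
      Integrable (fun θ : sphere (0 : Euc n) 1 => G θ) (sph n) := fun hG =>
    (hG.comp continuous_subtype_val).integrable_of_hasCompactSupport
      (HasCompactSupport.of_compactSpace _)
  have h0 := integral_rot_eq_zero (hg.mul hh) i j
  have e : ∀ x : Euc n, rot i j (g * h) x = rot i j g x * h x + g x * rot i j h x := by
    intro x
    simp only [rot, fderiv_mul (hg.differentiable one_ne_zero x) (hh.differentiable one_ne_zero x)]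
    simp
    ring
  change ∫ θ, rot i j (g * h) (θ : Euc n) ∂sph n = 0 at h0
  simp only [e] at h0
  have h1 := hi (G := fun x => rot i j g x * h x) ((continuous_rot hg i j).mul hh.continuous)
  have h2 := hi (G := fun x => g x * rot i j h x) (hg.continuous.mul (continuous_rot hh i j))
  rw [integral_add h1 h2] at h0
  linarith

end Vale.Agent.P225
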