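import Mathlib
import Vale.Agent.P225.Poly
import Vale.Agent.P225.Sphere

/-!
The angular operator and its action on homogeneous harmonic polynomials.
-/

namespace Vale.Agent.P225

open MeasureTheory Set Metric Filter
open scoped Topology ContDiff RealInnerProductSpace

variable {n : ℕ}

theorem euc_expand (x : Euc n) : ∑ i, x i • unitVec i = x := by
  ext j
  simp [unitVec, Finset.sum_apply, Pi.single_apply]

theorem norm_sq_eq (x : Euc n) : ‖x‖ ^ 2 = ∑ i, x i * x i := by
  rw [EuclideanSpace.norm_sq_eq]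
  simp [Real.norm_eq_abs, _root_.sq]

/-- Evaluation of a polynomial at a point of Euclidean space. -/
noncomputable def ev (p : MvPolynomial (Fin n) ℝ) (x : Euc n) : ℝ :=
  MvPolynomial.eval (fun i => x i) p

theorem hasFDerivAt_ev (p : MvPolynomial (Fin n) ℝ) (x : Euc n) :
    HasFDerivAt (ev p)
      (∑ i, ev (MvPolynomial.pderiv i p) x • (EuclideanSpace.proj i : StrongDual ℝ (Euc n))) x := by
  induction p using MvPolynomial.induction_on with
  | C a =>
      have : (ev (MvPolynomial.C a) : Euc n → ℝ) = fun _ => a := by funext y; simp [ev]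
      rw [this]
      simpa [ev] using hasFDerivAt_const a x
  | add p q hp hq =>
      have : ev (p + q) = ev p + ev q := by funext y; simp [ev]
      rw [this]
      refine (hp.add hq).congr_fderiv ?_
      simp [ev, add_smul, Finset.sum_add_distrib]
  | mul_X p j hp =>
      have : ev (p * MvPolynomial.X j) = fun y => ev p y * y j := by funext y; simp [ev]
      rw [this]
      refine (hp.fun_mul (hasFDerivAt_coord j x)).congr_fderiv ?_
      ext v
      simp [ev, MvPolynomial.pderiv_X, Pi.single_apply, apply_ite, mul_comm, Finset.mul_sum,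
        mul_add, Finset.sum_add_distrib, mul_left_comm]

theorem contDiff_ev (p : MvPolynomial (Fin n) ℝ) {k : WithTop ℕ∞} : ContDiff ℝ k (ev p) := by
  induction p using MvPolynomial.induction_on with
  | C a =>
      have : (ev (MvPolynomial.C a) : Euc n → ℝ) = fun _ => a := by funext y; simp [ev]
      rw [this]; exact contDiff_const
  | add p q hp hq =>
      have : ev (p + q) = ev p + ev q := by funext y; simp [ev]
      rw [this]; exact hp.add hq
  | mul_X p j hp =>
      have : ev (p * MvPolynomial.X j) = fun y => ev p y * y j := by funext y; simp [ev]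
      rw [this]
      exact hp.mul (EuclideanSpace.proj j : StrongDual ℝ (Euc n)).contDiff

theorem fderiv_ev_unitVec (p : MvPolynomial (Fin n) ℝ) (x : Euc n) (j : Fin n) :
    fderiv ℝ (ev p) x (unitVec j) = ev (MvPolynomial.pderiv j p) x := by
  simp [(hasFDerivAt_ev p x).fderiv, unitVec]

/-- The rotation field on polynomials. -/
noncomputable def rotPoly (i j : Fin n) (p : MvPolynomial (Fin n) ℝ) : MvPolynomial (Fin n) ℝ :=
  MvPolynomial.X i * MvPolynomial.pderiv j p - MvPolynomial.X j * MvPolynomial.pderiv i p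

theorem rot_ev (i j : Fin n) (p : MvPolynomial (Fin n) ℝ) : rot i j (ev p) = ev (rotPoly i j p) := by
  funext x
  simp only [rot, fderiv_ev_unitVec]
  simp [ev, rotPoly]

open MvPolynomial in
theorem sum_rotPoly {p : MvPolynomial (Fin n) ℝ} {l : ℕ} (h : p.IsHomogeneous l) :
    ∑ i, ∑ j, rotPoly i j (rotPoly i j p)
      = 2 * (sq n * lap p) - (2 * l * n + 2 * l * (l - 1) : ℕ) • p + (2 * l) • p := by
  have e : ∀ i j, rotPoly i j (rotPoly i j p)
      = (if i = j then X i * pderiv j p else 0) + (X i * X i) * pderiv j (pderiv j p)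
        - X i * pderiv i p - X i * (X j * pderiv j (pderiv i p))
        - X j * pderiv j p - X j * (X i * pderiv i (pderiv j p))
        + (if i = j then X j * pderiv i p else 0) + (X j * X j) * pderiv i (pderiv i p) := by
    intro i j
    simp only [rotPoly, map_sub, pderiv_mul, pderiv_X, Pi.single_apply]
    rcases eq_or_ne i j with rfl | hij
    · simp; ring
    · simp [hij, Ne.symm hij]; ring
  have e1 : ∀ i, ∑ j, X j * pderiv j (pderiv i p) = (l - 1) • pderiv i p := fun i =>
    h.pderiv.sum_X_mul_pderiv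
  have e2 : ∑ i, X i * ((l - 1) • pderiv i p) = (l * (l - 1)) • p := by
    simp only [mul_smul_comm, ← Finset.smul_sum, h.sum_X_mul_pderiv, ← mul_nsmul', mul_comm]
  simp only [e, Finset.sum_add_distrib, Finset.sum_sub_distrib, Finset.sum_ite_eq,
    Finset.mem_univ, if_true]
  rw [Finset.sum_comm (f := fun i j => X j * (X i * pderiv i (pderiv j p)))]
  simp only [Finset.sum_const, Finset.card_univ, Fintype.card_fin]
  simp only [← Finset.mul_sum, ← Finset.smul_sum, e1, e2, h.sum_X_mul_pderiv, ← lap_apply]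
  simp only [← Finset.sum_mul, show (∑ i, X i * X i : MvPolynomial (Fin n) ℝ) = sq n from rfl,
    ← Finset.mul_sum, ← lap_apply]
  simp only [nsmul_eq_mul, Nat.cast_mul, Nat.cast_add, Nat.cast_ofNat]
  ring

theorem sum_rot_rot_ev {p : MvPolynomial (Fin n) ℝ} {l : ℕ} (h : p.IsHomogeneous l)
    (hp : lap p = 0) (x : Euc n) :
    ∑ i, ∑ j, rot i j (rot i j (ev p)) x = -2 * ((l : ℝ) * (l + n - 2)) * ev p x := by
  simp only [rot_ev]
  have e : ∑ i, ∑ j, ev (rotPoly i j (rotPoly i j p)) x
      = ev (∑ i, ∑ j, rotPoly i j (rotPoly i j p)) x := by simp [ev]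
  rw [e, sum_rotPoly h, hp]
  rcases l with _ | l
  · simp [ev]
  · simp [ev]
    ring

theorem contDiff_rot {g : Euc n → ℝ} (hg : ContDiff ℝ 2 g) (i j : Fin n) :
    ContDiff ℝ 1 (rot i j g) := by
  have h : ContDiff ℝ 1 (fderiv ℝ g) := hg.fderiv_right le_rfl
  exact ((EuclideanSpace.proj i : StrongDual ℝ (Euc n)).contDiff.mul
    (h.clm_apply contDiff_const)).sub
      ((EuclideanSpace.proj j : StrongDual ℝ (Euc n)).contDiff.mul (h.clm_apply contDiff_const))

/-- The angular part of the Euclidean Laplacian, times the squared radius. -/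
noncomputable def ang (g : Euc n → ℝ) (x : Euc n) : ℝ :=
  ‖x‖ ^ 2 * ∑ i, fderiv ℝ (fderiv ℝ g) x (unitVec i) (unitVec i)
    - fderiv ℝ (fderiv ℝ g) x x x - ((n : ℝ) - 1) * fderiv ℝ g x x

theorem rot_rot_apply {g : Euc n → ℝ} (hg : ContDiff ℝ 2 g) (i j : Fin n) (x : Euc n) :
    rot i j (rot i j g) x =
      x i * ((if i = j then fderiv ℝ g x (unitVec j) else 0)
          + x i * fderiv ℝ (fderiv ℝ g) x (unitVec j) (unitVec j)
          - fderiv ℝ g x (unitVec i) - x j * fderiv ℝ (fderiv ℝ g) x (unitVec j) (unitVec i))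
      - x j * (fderiv ℝ g x (unitVec j) + x i * fderiv ℝ (fderiv ℝ g) x (unitVec i) (unitVec j)
          - (if i = j then fderiv ℝ g x (unitVec i) else 0)
          - x j * fderiv ℝ (fderiv ℝ g) x (unitVec i) (unitVec i)) := by
  have hD : HasFDerivAt (fderiv ℝ g) (fderiv ℝ (fderiv ℝ g) x) x :=
    ((hg.fderiv_right (m := 1) le_rfl).differentiable one_ne_zero x).hasFDerivAt
  have happ : ∀ v : Euc n, HasFDerivAt (fun y => fderiv ℝ g y v)
      ((fderiv ℝ (fderiv ℝ g) x).flip v) x := fun v => by
    simpa using hD.clm_apply (hasFDerivAt_const v x)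
  have hr := ((hasFDerivAt_coord i x).fun_mul (happ (unitVec j))).sub
    ((hasFDerivAt_coord j x).fun_mul (happ (unitVec i)))
  have e : fderiv ℝ (rot i j g) x = _ := hr.fderiv
  conv_lhs => unfold rot
  rw [show (fun x => x i * fderiv ℝ g x (unitVec j) - x j * fderiv ℝ g x (unitVec i))
    = rot i j g from rfl, e]
  rcases eq_or_ne i j with rfl | hij
  · simp [unitVec]
  · simp [unitVec, hij, Ne.symm hij]
    ring

theorem fderiv_apply_sum (L : Euc n →L[ℝ] ℝ) (x : Euc n) : ∑ i, x i * L (unitVec i) = L x := by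
  conv_rhs => rw [← euc_expand x, map_sum]
  simp

theorem bilin_apply_sum (B : Euc n →L[ℝ] Euc n →L[ℝ] ℝ) (x : Euc n) :
    ∑ i, ∑ j, x i * x j * B (unitVec i) (unitVec j) = B x x := by
  rw [← fderiv_apply_sum (B x) x, Finset.sum_comm]
  refine Finset.sum_congr rfl fun i _ => ?_
  have h := fderiv_apply_sum (B.flip (unitVec i)) x
  simp only [ContinuousLinearMap.flip_apply] at h
  rw [← h, Finset.mul_sum]
  exact Finset.sum_congr rfl fun j _ => by ring

theorem sum_rot_rot {g : Euc n → ℝ} (hg : ContDiff ℝ 2 g) (x : Euc n) :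
    ∑ i, ∑ j, rot i j (rot i j g) x = 2 * ang g x := by
  set B := fderiv ℝ (fderiv ℝ g) x
  set L := fderiv ℝ g x
  have e : ∀ i j, rot i j (rot i j g) x
      = (if i = j then x i * L (unitVec j) else 0) + (x i * x i) * B (unitVec j) (unitVec j)
        - x i * L (unitVec i) - x i * x j * B (unitVec j) (unitVec i)
        - x j * L (unitVec j) - x i * x j * B (unitVec i) (unitVec j)
        + (if i = j then x j * L (unitVec i) else 0)
        + (x j * x j) * B (unitVec i) (unitVec i) := by
    intro i j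
    rw [rot_rot_apply hg]
    rcases eq_or_ne i j with rfl | hij
    · simp [L, B]; ring
    · simp [hij, L, B]; ring
  simp only [e, Finset.sum_add_distrib, Finset.sum_sub_distrib, Finset.sum_ite_eq,
    Finset.mem_univ, if_true]
  have e1 : ∑ i, ∑ j, x i * x j * B (unitVec j) (unitVec i) = B x x := by
    rw [Finset.sum_comm, ← bilin_apply_sum B x]
    refine Finset.sum_congr rfl fun i _ => Finset.sum_congr rfl fun j _ => by ring
  rw [e1, bilin_apply_sum B x]
  simp only [Finset.sum_const, Finset.card_univ, Fintype.card_fin]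
  simp only [← Finset.mul_sum, ← Finset.sum_mul, ← norm_sq_eq, fderiv_apply_sum,
    ← Finset.smul_sum, nsmul_eq_mul]
  simp only [ang, B, L]
  ring

theorem integrable_sph {G : sphere (0 : Euc n) 1 → ℝ} (hG : Continuous G) :
    Integrable G (sph n) := by
  have : CompactSpace (sphere (0 : Euc n) 1) :=
    isCompact_iff_compactSpace.mp (isCompact_sphere _ _)
  exact hG.integrable_of_hasCompactSupport (HasCompactSupport.of_compactSpace _)

theorem integrable_sph_restrict {G : Euc n → ℝ} (hG : Continuous G) :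
    Integrable (fun θ : sphere (0 : Euc n) 1 => G θ) (sph n) :=
  integrable_sph (hG.comp continuous_subtype_val)

theorem integral_ang_mul [NeZero n] {g : Euc n → ℝ} (hg : ContDiff ℝ 2 g)
    {p : MvPolynomial (Fin n) ℝ} {l : ℕ} (h : p.IsHomogeneous l) (hp : lap p = 0) :
    ∫ θ, ang g (θ : Euc n) * ev p θ ∂sph n
      = -((l : ℝ) * (l + n - 2)) * ∫ θ, g (θ : Euc n) * ev p θ ∂sph n := by
  have hP : ∀ k : WithTop ℕ∞, ContDiff ℝ k (ev p) := fun k => contDiff_ev p
  have key : ∫ θ, (∑ i, ∑ j, rot i j (rot i j g) (θ : Euc n)) * ev p θ ∂sph n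
      = ∫ θ, g (θ : Euc n) * ∑ i, ∑ j, rot i j (rot i j (ev p)) (θ : Euc n) ∂sph n := by
    have i1 : ∀ i j, Integrable
        (fun θ : sphere (0 : Euc n) 1 => rot i j (rot i j g) (θ : Euc n) * ev p θ) (sph n) :=
      fun i j => integrable_sph_restrict
        (G := fun x => rot i j (rot i j g) x * ev p x)
        ((continuous_rot (contDiff_rot hg i j) i j).mul (hP 2).continuous)
    have i2 : ∀ i j, Integrable
        (fun θ : sphere (0 : Euc n) 1 => g (θ : Euc n) * rot i j (rot i j (ev p)) θ) (sph n) :=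
      fun i j => integrable_sph_restrict
        (G := fun x => g x * rot i j (rot i j (ev p)) x)
        (hg.continuous.mul (continuous_rot (contDiff_rot (hP 2) i j) i j))
    simp only [Finset.sum_mul, Finset.mul_sum]
    rw [integral_finsetSum _ fun i _ => integrable_finsetSum _ fun j _ => i1 i j,
      integral_finsetSum _ fun i _ => integrable_finsetSum _ fun j _ => i2 i j]
    refine Finset.sum_congr rfl fun i _ => ?_
    rw [integral_finsetSum _ fun j _ => i1 i j, integral_finsetSum _ fun j _ => i2 i j]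
    refine Finset.sum_congr rfl fun j _ => ?_
    rw [rot_symm_integral (contDiff_rot hg i j) (hP 1),
      rot_symm_integral (hg.of_le one_le_two) (contDiff_rot (hP 2) i j), neg_neg]
  simp only [sum_rot_rot hg, sum_rot_rot_ev h hp] at key
  have e : ∀ θ : sphere (0 : Euc n) 1, g (θ : Euc n) * (-2 * ((l : ℝ) * (l + n - 2)) * ev p θ)
      = -2 * ((l : ℝ) * (l + n - 2)) * (g (θ : Euc n) * ev p θ) := fun θ => by ring
  simp only [mul_assoc (2 : ℝ), e, integral_const_mul] at key
  linarith

theorem integral_ev_eq_zero [NeZero n] (hn : 2 ≤ n) {p : MvPolynomial (Fin n) ℝ} {l : ℕ}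
    (h : p.IsHomogeneous l) (hp : lap p = 0) (hl : l ≠ 0) :
    ∫ θ, ev p (θ : Euc n) ∂sph n = 0 := by
  have key := integral_ang_mul (g := fun _ : Euc n => (1 : ℝ)) contDiff_const h hp
  simp [ang] at key
  rcases key with (h0 | h0) | h0
  · exact absurd h0 hl
  · exfalso
    have : (1 : ℝ) ≤ l := by exact_mod_cast (Nat.one_le_iff_ne_zero.mpr hl)
    have : (2 : ℝ) ≤ n := by exact_mod_cast hn
    have h2 : (l : ℝ) + n = 2 := by linarith
    linarith
  · exact h0

end Vale.Agent.P225
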