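import Mathlib

/-!
The radial equation of one harmonic mode: `(a / r ^ l) ^ 2` is monotone.
-/

namespace Vale.Agent.P225

open Set Filter
open scoped Topology

/-- A warping function: positive, tending to zero at the origin, with derivative at most one. -/
def Warping (f : ℝ → ℝ) : Prop :=
  DifferentiableOn ℝ f (Ioi 0) ∧ (∀ r, 0 < r → 0 < f r) ∧ (∀ r, 0 < r → deriv f r ≤ 1) ∧
    Tendsto f (𝓝[>] 0) (𝓝 0)

theorem Warping.hasDerivAt {f : ℝ → ℝ} (h : Warping f) {r : ℝ} (hr : 0 < r) :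
    HasDerivAt f (deriv f r) r :=
  (h.1.differentiableAt (Ioi_mem_nhds hr)).hasDerivAt

theorem Warping.le_self {f : ℝ → ℝ} (h : Warping f) {r : ℝ} (hr : 0 < r) : f r ≤ r := by
  have hd : ∀ x : ℝ, 0 < x → HasDerivAt (fun t => t - f t) (1 - deriv f x) x := fun x hx =>
    (hasDerivAt_id x).sub (h.hasDerivAt hx)
  have hm : MonotoneOn (fun t => t - f t) (Ioi 0) :=
    monotoneOn_of_deriv_nonneg (convex_Ioi 0)
      (fun x hx => (hd x hx).continuousAt.continuousWithinAt)
      (fun x hx => (hd x (interior_subset hx)).differentiableAt.differentiableWithinAt)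
      (fun x hx => by
        rw [(hd x (interior_subset hx)).deriv]
        linarith [h.2.2.1 x (interior_subset hx)])
  have hlim : Tendsto (fun t => t - f t) (𝓝[>] 0) (𝓝 0) := by
    simpa using (tendsto_nhdsWithin_of_tendsto_nhds tendsto_id).sub h.2.2.2
  have := le_of_tendsto hlim (eventually_of_mem (Ioo_mem_nhdsGT hr) fun x hx =>
    hm hx.1 hr hx.2.le)
  linarith

/-- A solution of the radial equation of degree `l` in dimension `m + 2`. -/
structure Mode (f : ℝ → ℝ) (m l : ℕ) (a b : ℝ → ℝ) : Prop where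
  deriv_a : ∀ r, 0 < r → HasDerivAt a (b r) r
  deriv_b : ∀ r, 0 < r → HasDerivAt b
    ((l : ℝ) * (l + m) / f r ^ 2 * a r - ((m : ℝ) + 1) * (deriv f r / f r) * b r) r
  lim_a : ∃ A, Tendsto a (𝓝[>] 0) (𝓝 A) ∧ (l ≠ 0 → A = 0)
  bdd_b : ∃ B, ∀ r ∈ Ioc (0 : ℝ) 1, |b r| ≤ B

theorem Mode.sq_monotone {f : ℝ → ℝ} (hf : Warping f) {m l : ℕ} {a b : ℝ → ℝ}
    (h : Mode f m l a b) : MonotoneOn (fun r => (a r / r ^ l) ^ 2) (Ioi 0) := by
  obtain ⟨A, hA, hA0⟩ := h.lim_a
  obtain ⟨B, hB⟩ := h.bdd_b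
  set F : ℝ → ℝ := fun r => f r ^ (m + 1)
  set Z : ℝ → ℝ := fun r => a r * (F r * b r) - l * (F r / r) * a r ^ 2 with hZ
  have hF : ∀ r, 0 < r → HasDerivAt F (((m : ℝ) + 1) * f r ^ m * deriv f r) r := fun r hr => by
    exact ((hf.hasDerivAt hr).fun_pow (m + 1)).congr_deriv (by simp)
  have hZd : ∀ r, 0 < r → HasDerivAt Z (f r ^ (m + 1) * (b r - l * a r / r) ^ 2
      + f r ^ (m + 1) * a r ^ 2 / (f r ^ 2 * r ^ 2) * ((l : ℝ) * (l + m) * r ^ 2
        - l * ((m : ℝ) + 1) * deriv f r * f r * r - l * ((l : ℝ) - 1) * f r ^ 2)) r := by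
    intro r hr
    have hfr := (hf.2.1 r hr).ne'
    have h1 := ((h.deriv_a r hr).mul ((hF r hr).mul (h.deriv_b r hr))).sub
      ((((hF r hr).div (hasDerivAt_id r) hr.ne').const_mul (l : ℝ)).mul ((h.deriv_a r hr).pow 2))
    refine h1.congr_deriv ?_
    simp only [F, id_eq, Pi.mul_apply, Pi.div_apply, Pi.pow_apply, Nat.cast_ofNat]
    field_simp
    ring
  have hnn : ∀ r, 0 < r → 0 ≤ f r ^ (m + 1) * (b r - l * a r / r) ^ 2
      + f r ^ (m + 1) * a r ^ 2 / (f r ^ 2 * r ^ 2) * ((l : ℝ) * (l + m) * r ^ 2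
        - l * ((m : ℝ) + 1) * deriv f r * f r * r - l * ((l : ℝ) - 1) * f r ^ 2) := by
    intro r hr
    have hp := hf.2.1 r hr
    have hle := hf.le_self hr
    refine add_nonneg (by positivity) (mul_nonneg (by positivity) ?_)
    have hl : (0 : ℝ) ≤ l := Nat.cast_nonneg l
    have hm : (0 : ℝ) ≤ m := Nat.cast_nonneg m
    have hfr : f r * r ≤ r ^ 2 := by nlinarith
    have hff : f r ^ 2 ≤ r ^ 2 := by nlinarith
    have h1 : (l : ℝ) * ((m : ℝ) + 1) * (deriv f r * (f r * r))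
        ≤ (l : ℝ) * ((m : ℝ) + 1) * r ^ 2 := by
      refine mul_le_mul_of_nonneg_left ?_ (by positivity)
      calc deriv f r * (f r * r) ≤ 1 * (f r * r) :=
            mul_le_mul_of_nonneg_right (hf.2.2.1 r hr) (by positivity)
        _ ≤ r ^ 2 := by linarith
    rcases Nat.eq_zero_or_pos l with h0 | h0
    · subst h0; simp
    · have h2 : (l : ℝ) * ((l : ℝ) - 1) * f r ^ 2 ≤ (l : ℝ) * ((l : ℝ) - 1) * r ^ 2 :=
        mul_le_mul_of_nonneg_left hff (mul_nonneg hl (by
          have : (1 : ℝ) ≤ l := by exact_mod_cast h0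
          linarith))
      linarith
  have hZm : MonotoneOn Z (Ioi 0) :=
    monotoneOn_of_deriv_nonneg (convex_Ioi 0)
      (fun x hx => (hZd x hx).continuousAt.continuousWithinAt)
      (fun x hx => (hZd x (interior_subset hx)).differentiableAt.differentiableWithinAt)
      (fun x hx => by rw [(hZd x (interior_subset hx)).deriv]; exact hnn x (interior_subset hx))
  have hI : ∀ᶠ r in 𝓝[>] (0 : ℝ), r ∈ Ioc (0 : ℝ) 1 :=
    eventually_of_mem (Ioo_mem_nhdsGT one_pos) fun x hx => ⟨hx.1, hx.2.le⟩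
  have hFlim : Tendsto F (𝓝[>] 0) (𝓝 0) := by
    have := hf.2.2.2.pow (m + 1)
    simpa [F] using this
  have hFb : IsBoundedUnder (· ≤ ·) (𝓝[>] (0 : ℝ)) (fun r => ‖b r‖) :=
    isBoundedUnder_of_eventually_le (a := B) (hI.mono fun r hr => hB r hr)
  have hT1 : Tendsto (fun r => a r * (F r * b r)) (𝓝[>] 0) (𝓝 0) := by
    simpa using hA.mul (hFlim.zero_mul_isBoundedUnder_le hFb)
  have hT2 : Tendsto (fun r => (l : ℝ) * (F r / r) * a r ^ 2) (𝓝[>] 0) (𝓝 0) := by
    rcases Nat.eq_zero_or_pos l with h0 | h0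
    · simp [h0]
    · have hA' : A = 0 := hA0 (by omega)
      subst hA'
      have hb : IsBoundedUnder (· ≤ ·) (𝓝[>] (0 : ℝ)) (fun r => ‖(l : ℝ) * (F r / r)‖) := by
        refine isBoundedUnder_of_eventually_le (a := (l : ℝ)) (hI.mono fun r hr => ?_)
        have hp := hf.2.1 r hr.1
        have hle := hf.le_self hr.1
        have hr0 : 0 < r := hr.1
        rw [Real.norm_of_nonneg (by positivity)]
        refine mul_le_of_le_one_right (Nat.cast_nonneg l) ((div_le_one hr.1).mpr ?_)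
        calc f r ^ (m + 1) ≤ r ^ (m + 1) := pow_le_pow_left₀ hp.le hle _
          _ ≤ r ^ 1 := pow_le_pow_of_le_one hr.1.le hr.2 (by omega)
          _ = r := pow_one r
      have hsq : Tendsto (fun r => a r ^ 2) (𝓝[>] 0) (𝓝 0) := by simpa using hA.pow 2
      exact isBoundedUnder_le_mul_tendsto_zero hb hsq
  have hlim : Tendsto Z (𝓝[>] 0) (𝓝 0) := by simpa [hZ] using hT1.sub hT2
  have hZ0 : ∀ r, 0 < r → 0 ≤ Z r := fun r hr =>
    le_of_tendsto hlim (eventually_of_mem (Ioo_mem_nhdsGT hr) fun x hx => hZm hx.1 hr hx.2.le)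
  have hq : ∀ r, 0 < r → HasDerivAt (fun r => (a r / r ^ l) ^ 2)
      (2 * Z r / (F r * (r ^ l) ^ 2)) r := by
    intro r hr
    have hfr := (hf.2.1 r hr).ne'
    refine (((h.deriv_a r hr).div (hasDerivAt_pow l r) (pow_ne_zero _ hr.ne')).pow 2).congr_deriv ?_
    simp only [hZ, F, Nat.cast_ofNat, Pi.div_apply]
    rcases l with _ | k
    · simp
      field_simp
    · have hr' := hr.ne'
      have hrk := pow_ne_zero k hr'
      simp only [Nat.cast_add, Nat.cast_one, Nat.add_sub_cancel, pow_succ, pow_zero, one_mul]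
      field_simp
  exact monotoneOn_of_deriv_nonneg (convex_Ioi 0)
    (fun x hx => (hq x hx).continuousAt.continuousWithinAt)
    (fun x hx => (hq x (interior_subset hx)).differentiableAt.differentiableWithinAt)
    (fun x hx => by
      have hx' : 0 < x := interior_subset hx
      have := hf.2.1 x hx'
      rw [(hq x hx').deriv]
      exact div_nonneg (by linarith [hZ0 x hx']) (by positivity))

theorem Mode.eq_zero_of_root {f : ℝ → ℝ} (hf : Warping f) {m l : ℕ} {a b : ℝ → ℝ}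
    (h : Mode f m l a b) {r R : ℝ} (hr : 0 < r) (hrR : r ≤ R) (hR : a R = 0) : a r = 0 := by
  have h1 := h.sq_monotone hf hr (hr.trans_le hrR) hrR
  simp only [hR, zero_div, ne_eq, OfNat.ofNat_ne_zero, not_false_eq_true, zero_pow] at h1
  have h2 : a r / r ^ l = 0 := pow_eq_zero_iff two_ne_zero |>.mp (le_antisymm h1 (sq_nonneg _))
  simpa [hr.ne'] using h2

theorem Mode.eq_zero_of_growth {f : ℝ → ℝ} (hf : Warping f) {m l : ℕ} {a b : ℝ → ℝ}
    (h : Mode f m l a b) {C d : ℝ} (hd : d < l) (hb : ∀ r, 0 < r → |a r| ≤ C * (1 + r) ^ d)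
    {r : ℝ} (hr : 0 < r) : a r = 0 := by
  by_contra hne
  set c := |a r| / r ^ l
  have hc : 0 < c := div_pos (abs_pos.mpr hne) (pow_pos hr l)
  set e := max d 0
  have he : e < l ∨ (l : ℝ) = 0 := by
    rcases Nat.eq_zero_or_pos l with h0 | h0
    · exact Or.inr (by simp [h0])
    · exact Or.inl (max_lt hd (by exact_mod_cast h0))
  have hC : 0 ≤ C := by
    have := (abs_nonneg _).trans (hb r hr)
    exact nonneg_of_mul_nonneg_left this (Real.rpow_pos_of_pos (by linarith) d)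
  have hlow : ∀ t, r ≤ t → c * t ^ l ≤ |a t| := by
    intro t ht
    have ht0 := hr.trans_le ht
    have h1 := h.sq_monotone hf hr ht0 ht
    simp only [sq_le_sq, abs_div, abs_pow, abs_of_pos hr, abs_of_pos ht0] at h1
    exact (le_div_iff₀ (pow_pos ht0 l)).mp h1
  have hup : ∀ t, 1 ≤ t → |a t| ≤ C * (2 : ℝ) ^ e * t ^ d := by
    intro t ht
    have ht0 : 0 < t := by linarith
    refine (hb t ht0).trans ?_
    rw [mul_assoc]
    refine mul_le_mul_of_nonneg_left ?_ hC
    rcases le_or_gt 0 d with hd0 | hd0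
    · rw [show e = d from max_eq_left hd0, ← Real.mul_rpow (by norm_num) ht0.le]
      exact Real.rpow_le_rpow (by linarith) (by linarith) hd0
    · rw [show e = 0 from max_eq_right hd0.le, Real.rpow_zero, one_mul]
      exact Real.rpow_le_rpow_of_nonpos ht0 (by linarith) hd0.le
  obtain ⟨t, htl, htr, ht1⟩ := ((tendsto_rpow_atTop (sub_pos.mpr hd)).eventually_gt_atTop
    (C * (2 : ℝ) ^ e / c) |>.and ((eventually_ge_atTop r).and (eventually_ge_atTop 1))).exists
  have ht0 : 0 < t := by linarith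
  rw [div_lt_iff₀ hc, Real.rpow_sub ht0, Real.rpow_natCast, div_mul_eq_mul_div,
    lt_div_iff₀ (Real.rpow_pos_of_pos ht0 d)] at htl
  linarith [hlow t htr, hup t ht1]

end Vale.Agent.P225
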