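import Mathlib
import Vale.Agent.P225.Poly
import Vale.Agent.P225.Sphere
import Vale.Agent.P225.Radial
import Vale.Agent.P225.Calculus

/-!
Harmonic functions of polynomial growth on rotationally symmetric spaces.
-/

namespace Vale.Agent.P225

open MeasureTheory Set Metric Filter
open scoped Topology ContDiff RealInnerProductSpace

variable {n : ℕ}

/-- The derivative of `u` at `x` in the direction `v`. -/
noncomputable def D1 (u : Euc n → ℝ) (x v : Euc n) : ℝ := fderiv ℝ u x v

/-- The second derivative of `u` at `x` in the directions `v`, `w`. -/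
noncomputable def D2 (u : Euc n → ℝ) (x v w : Euc n) : ℝ := D1 (fun y => D1 u y w) x v

/-- The Euclidean Laplacian. -/
noncomputable def eucLap (u : Euc n → ℝ) (x : Euc n) : ℝ := ∑ i, D2 u x (unitVec i) (unitVec i)

/-- The distance to the origin. -/
noncomputable def rad (x : Euc n) : ℝ := ‖x‖

/-- The Laplace-Beltrami operator of the metric `dr ^ 2 + f r ^ 2 dθ ^ 2` at `x = r θ`, written with
the Euclidean derivatives in the coordinates `x`. -/
noncomputable def rotLaplacian (f : ℝ → ℝ) (u : Euc n → ℝ) (x : Euc n) : ℝ :=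
  D2 u x x x / rad x ^ 2 + ((n : ℝ) - 1) * (deriv f (rad x) / f (rad x)) * (D1 u x x / rad x)
    + (rad x ^ 2 * eucLap u x - D2 u x x x - ((n : ℝ) - 1) * D1 u x x) / f (rad x) ^ 2

theorem D2_eq {u : Euc n → ℝ} (hu : ContDiff ℝ 2 u) (x v w : Euc n) :
    D2 u x v w = fderiv ℝ (fderiv ℝ u) x v w := by
  have h := ((hu.fderiv_right (m := 1) le_rfl).differentiable one_ne_zero x).hasFDerivAt.clm_apply
    (hasFDerivAt_const w x)
  simp only [D2, D1]
  rw [h.fderiv]
  simp

theorem rotLaplacian_eq (f : ℝ → ℝ) {u : Euc n → ℝ} (hu : ContDiff ℝ 2 u) (x : Euc n) :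
    rotLaplacian f u x = fderiv ℝ (fderiv ℝ u) x x x / ‖x‖ ^ 2
      + ((n : ℝ) - 1) * (deriv f ‖x‖ / f ‖x‖) * (fderiv ℝ u x x / ‖x‖)
      + (‖x‖ ^ 2 * ∑ i, fderiv ℝ (fderiv ℝ u) x (unitVec i) (unitVec i)
          - fderiv ℝ (fderiv ℝ u) x x x - ((n : ℝ) - 1) * fderiv ℝ u x x) / f ‖x‖ ^ 2 := by
  simp only [rotLaplacian, eucLap, D2_eq hu, rad]
  rfl

theorem fderiv2_add {u v : Euc n → ℝ} (hu : ContDiff ℝ 2 u) (hv : ContDiff ℝ 2 v) (x : Euc n) :
    fderiv ℝ (fderiv ℝ (u + v)) x = fderiv ℝ (fderiv ℝ u) x + fderiv ℝ (fderiv ℝ v) x := by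
  have e : fderiv ℝ (u + v) = fderiv ℝ u + fderiv ℝ v := by
    funext y
    exact fderiv_add (hu.differentiable two_ne_zero y) (hv.differentiable two_ne_zero y)
  rw [e, fderiv_add ((hu.fderiv_right (m := 1) le_rfl).differentiable one_ne_zero x)
    ((hv.fderiv_right (m := 1) le_rfl).differentiable one_ne_zero x)]

theorem rotLaplacian_add (f : ℝ → ℝ) {u v : Euc n → ℝ} (hu : ContDiff ℝ 2 u)
    (hv : ContDiff ℝ 2 v) (x : Euc n) :
    rotLaplacian f (u + v) x = rotLaplacian f u x + rotLaplacian f v x := by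
  simp only [rotLaplacian_eq f hu, rotLaplacian_eq f hv, rotLaplacian_eq f (show ContDiff ℝ 2 (u + v) from hu.add hv),
    fderiv2_add hu hv, fderiv_add (hu.differentiable two_ne_zero x) (hv.differentiable two_ne_zero x),
    add_apply, Finset.sum_add_distrib]
  ring

theorem rotLaplacian_smul (f : ℝ → ℝ) {u : Euc n → ℝ} (hu : ContDiff ℝ 2 u) (c : ℝ) (x : Euc n) :
    rotLaplacian f (c • u) x = c * rotLaplacian f u x := by
  have e : fderiv ℝ (c • u) = c • fderiv ℝ u := by
    funext y
    exact fderiv_const_smul (hu.differentiable two_ne_zero y) c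
  have e2 : fderiv ℝ (fderiv ℝ (c • u)) x = c • fderiv ℝ (fderiv ℝ u) x := by
    rw [e, fderiv_const_smul ((hu.fderiv_right (m := 1) le_rfl).differentiable one_ne_zero x) c]
  simp only [rotLaplacian_eq f hu, rotLaplacian_eq f (u := c • u) (hu.const_smul c), e2]
  simp only [e, Pi.smul_apply, smul_apply, smul_eq_mul, ← Finset.mul_sum]
  ring

/-- `u` is twice continuously differentiable on all of Euclidean space, harmonic for
`dr ^ 2 + f r ^ 2 dθ ^ 2` away from the origin, and grows at most like `(1 + r) ^ d`. -/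
def IsGrowthHarmonic (n : ℕ) (f : ℝ → ℝ) (d : ℝ) (u : Euc n → ℝ) : Prop :=
  ContDiff ℝ 2 u ∧ (∀ x, x ≠ 0 → rotLaplacian f u x = 0) ∧
    ∃ C : ℝ, ∀ x, |u x| ≤ C * (1 + rad x) ^ d

theorem IsGrowthHarmonic.add {f : ℝ → ℝ} {d : ℝ} {u v : Euc n → ℝ}
    (hu : IsGrowthHarmonic n f d u) (hv : IsGrowthHarmonic n f d v) :
    IsGrowthHarmonic n f d (u + v) := by
  obtain ⟨hu, hu', C, hC⟩ := hu
  obtain ⟨hv, hv', D, hD⟩ := hv
  refine ⟨hu.add hv, fun x hx => ?_, C + D, fun x => ?_⟩
  · rw [rotLaplacian_add f hu hv, hu' x hx, hv' x hx, add_zero]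
  · rw [add_mul]
    exact (abs_add_le _ _).trans (add_le_add (hC x) (hD x))

theorem IsGrowthHarmonic.zero {f : ℝ → ℝ} {d : ℝ} :
    IsGrowthHarmonic n f d (0 : Euc n → ℝ) := by
  refine ⟨contDiff_const (c := (0 : ℝ)), fun x _ => ?_, 0, fun x => by simp⟩
  have h := rotLaplacian_smul f (u := (0 : Euc n → ℝ)) (contDiff_const (c := (0 : ℝ))) 0 x
  simpa using h

theorem IsGrowthHarmonic.smul {f : ℝ → ℝ} {d : ℝ} (c : ℝ) {u : Euc n → ℝ}
    (hu : IsGrowthHarmonic n f d u) : IsGrowthHarmonic n f d (c • u) := by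
  obtain ⟨hu, hu', C, hC⟩ := hu
  refine ⟨hu.const_smul c, fun x hx => ?_, |c| * C, fun x => ?_⟩
  · rw [rotLaplacian_smul f hu, hu' x hx, mul_zero]
  · rw [Pi.smul_apply, smul_eq_mul, abs_mul, mul_assoc]
    exact mul_le_mul_of_nonneg_left (hC x) (abs_nonneg c)

/-- The space of growth-harmonic functions. -/
noncomputable def growthHarmonic (n : ℕ) (f : ℝ → ℝ) (d : ℝ) : Submodule ℝ (Euc n → ℝ) where
  carrier := {u | IsGrowthHarmonic n f d u}
  add_mem' := IsGrowthHarmonic.add
  zero_mem' := IsGrowthHarmonic.zero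
  smul_mem' := IsGrowthHarmonic.smul

theorem rotLaplacian_id (u : Euc n → ℝ) {x : Euc n} (hx : x ≠ 0) :
    rotLaplacian id u x = eucLap u x := by
  have hr : rad x ≠ 0 := norm_ne_zero_iff.mpr hx
  simp only [rotLaplacian, id_eq, deriv_id]
  field_simp
  ring

theorem hasDerivAt_sint {G G' : ℝ → sphere (0 : Euc n) 1 → ℝ}
    (hG : Continuous (Function.uncurry G)) (hG' : Continuous (Function.uncurry G'))
    (h : ∀ r θ, HasDerivAt (fun t => G t θ) (G' r θ) r) (r : ℝ) :
    HasDerivAt (fun t => ∫ θ, G t θ ∂sph n) (∫ θ, G' r θ ∂sph n) r := by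
  have : CompactSpace (sphere (0 : Euc n) 1) :=
    isCompact_iff_compactSpace.mp (isCompact_sphere _ _)
  obtain ⟨B, hB⟩ := ((isCompact_closedBall r 1).prod isCompact_univ).exists_bound_of_continuousOn
    hG'.continuousOn
  refine (hasDerivAt_integral_of_dominated_loc_of_deriv_le (closedBall_mem_nhds r one_pos)
    (Eventually.of_forall fun t => ?_) (integrable_sph ?_) ?_ (bound := fun _ => B)
    (Eventually.of_forall fun θ t ht => hB (t, θ) ⟨ht, mem_univ _⟩) (integrable_const B)
    (Eventually.of_forall fun θ t _ => h t θ)).2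
  · exact (hG.comp (Continuous.prodMk_right t)).aestronglyMeasurable
  · exact hG.comp (Continuous.prodMk_right r)
  · exact (hG'.comp (Continuous.prodMk_right r)).aestronglyMeasurable

/-- The moment of `u` against a polynomial on the sphere of radius `r`. -/
noncomputable def mom (u : Euc n → ℝ) (p : MvPolynomial (Fin n) ℝ) (r : ℝ) : ℝ :=
  ∫ θ, u (r • (θ : Euc n)) * ev p θ ∂sph n

/-- The moment of the radial derivative of `u`. -/
noncomputable def momDeriv (u : Euc n → ℝ) (p : MvPolynomial (Fin n) ℝ) (r : ℝ) : ℝ :=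
  ∫ θ, fderiv ℝ u (r • (θ : Euc n)) θ * ev p θ ∂sph n

theorem hasDerivAt_ray (θ : Euc n) (r : ℝ) : HasDerivAt (fun t : ℝ => t • θ) θ r := by
  simpa using (hasDerivAt_id r).smul_const θ

theorem hasDerivAt_mom {u : Euc n → ℝ} (hu : ContDiff ℝ 2 u) (p : MvPolynomial (Fin n) ℝ) (r : ℝ) :
    HasDerivAt (mom u p) (momDeriv u p r) r := by
  have hc : Continuous fun q : ℝ × sphere (0 : Euc n) 1 => q.1 • (q.2 : Euc n) :=
    continuous_fst.smul (continuous_subtype_val.comp continuous_snd)
  have hθ : Continuous fun q : ℝ × sphere (0 : Euc n) 1 => (q.2 : Euc n) :=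
    continuous_subtype_val.comp continuous_snd
  have hp : Continuous fun q : ℝ × sphere (0 : Euc n) 1 => ev p (q.2 : Euc n) :=
    (contDiff_ev p (k := 0)).continuous.comp hθ
  refine hasDerivAt_sint (n := n) (G := fun t θ => u (t • (θ : Euc n)) * ev p θ)
    (G' := fun t θ => fderiv ℝ u (t • (θ : Euc n)) θ * ev p θ)
    ((hu.continuous.comp hc).mul hp)
    (by exact (((hu.continuous_fderiv two_ne_zero).comp hc).clm_apply hθ).mul hp) (fun t θ => ?_) r
  exact ((hu.differentiable two_ne_zero _).hasFDerivAt.comp_hasDerivAt t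
    (hasDerivAt_ray (θ : Euc n) t)).mul_const _

theorem hasDerivAt_momDeriv {u : Euc n → ℝ} (hu : ContDiff ℝ 2 u) (p : MvPolynomial (Fin n) ℝ)
    (r : ℝ) : HasDerivAt (momDeriv u p)
      (∫ θ, fderiv ℝ (fderiv ℝ u) (r • (θ : Euc n)) θ θ * ev p θ ∂sph n) r := by
  have hc : Continuous fun q : ℝ × sphere (0 : Euc n) 1 => q.1 • (q.2 : Euc n) :=
    continuous_fst.smul (continuous_subtype_val.comp continuous_snd)
  have hθ : Continuous fun q : ℝ × sphere (0 : Euc n) 1 => (q.2 : Euc n) :=
    continuous_subtype_val.comp continuous_snd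
  have hp : Continuous fun q : ℝ × sphere (0 : Euc n) 1 => ev p (q.2 : Euc n) :=
    (contDiff_ev p (k := 0)).continuous.comp hθ
  have h1 : ContDiff ℝ 1 (fderiv ℝ u) := hu.fderiv_right le_rfl
  refine hasDerivAt_sint (n := n) (G := fun t θ => fderiv ℝ u (t • (θ : Euc n)) θ * ev p θ)
    (G' := fun t θ => fderiv ℝ (fderiv ℝ u) (t • (θ : Euc n)) θ θ * ev p θ)
    (by exact (((hu.continuous_fderiv two_ne_zero).comp hc).clm_apply hθ).mul hp)
    (by exact ((((h1.continuous_fderiv one_ne_zero).comp hc).clm_apply hθ).clm_apply hθ).mul hp)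
    (fun t θ => ?_) r
  refine HasDerivAt.mul_const ?_ _
  simpa using ((h1.differentiable one_ne_zero _).hasFDerivAt.comp_hasDerivAt t
    (hasDerivAt_ray (θ : Euc n) t)).clm_apply (hasDerivAt_const t (θ : Euc n))

theorem ang_comp_smul {u : Euc n → ℝ} (hu : ContDiff ℝ 2 u) (r : ℝ) (x : Euc n) :
    ang (fun y => u (r • y)) x = ang u (r • x) := by
  set S : Euc n →L[ℝ] Euc n := r • ContinuousLinearMap.id ℝ (Euc n)
  have hS : ∀ y, HasFDerivAt (fun z : Euc n => r • z) S y := fun y => (hasFDerivAt_id y).const_smul r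
  have e1 : fderiv ℝ (fun y => u (r • y)) = fun y => r • fderiv ℝ u (r • y) := by
    funext y
    refine (((hu.differentiable two_ne_zero _).hasFDerivAt).comp y (hS y)).fderiv.trans ?_
    ext v
    simp [S]
  have e2 : fderiv ℝ (fderiv ℝ (fun y => u (r • y))) x
      = r • (fderiv ℝ (fderiv ℝ u) (r • x)).comp S := by
    rw [e1]
    exact ((((hu.fderiv_right (m := 1) le_rfl).differentiable one_ne_zero _).hasFDerivAt).comp x
      (hS x)).const_smul r |>.fderiv
  simp only [ang, e2]
  rw [e1]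
  simp [S, norm_smul, mul_pow, ← Finset.mul_sum]
  ring

theorem mom_equation [NeZero n] {f : ℝ → ℝ} {u : Euc n → ℝ} (hu : ContDiff ℝ 2 u)
    (hu' : ∀ x, x ≠ 0 → rotLaplacian f u x = 0) {p : MvPolynomial (Fin n) ℝ} {l : ℕ}
    (h : p.IsHomogeneous l) (hp : lap p = 0) {r : ℝ} (hr : 0 < r) :
    ∫ θ, fderiv ℝ (fderiv ℝ u) (r • (θ : Euc n)) θ θ * ev p θ ∂sph n
      = (l : ℝ) * (l + n - 2) / f r ^ 2 * mom u p r
        - ((n : ℝ) - 1) * (deriv f r / f r) * momDeriv u p r := by
  have hnorm : ∀ θ : sphere (0 : Euc n) 1, ‖r • (θ : Euc n)‖ = r := fun θ => by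
    simp [norm_smul, abs_of_pos hr]
  have hpt : ∀ θ : sphere (0 : Euc n) 1, fderiv ℝ (fderiv ℝ u) (r • (θ : Euc n)) θ θ * ev p θ
      = -((f r ^ 2)⁻¹) * (ang (fun y => u (r • y)) (θ : Euc n) * ev p θ)
        + -(((n : ℝ) - 1) * (deriv f r / f r)) * (fderiv ℝ u (r • (θ : Euc n)) θ * ev p θ) := by
    intro θ
    have hne : r • (θ : Euc n) ≠ 0 := by
      rw [← norm_ne_zero_iff, hnorm θ]; exact hr.ne'
    have he := hu' _ hne
    have e : rotLaplacian f u (r • (θ : Euc n))
        = fderiv ℝ (fderiv ℝ u) (r • (θ : Euc n)) θ θ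
          + ((n : ℝ) - 1) * (deriv f r / f r) * fderiv ℝ u (r • (θ : Euc n)) θ
          + ang (fun y => u (r • y)) (θ : Euc n) / f r ^ 2 := by
      rw [ang_comp_smul hu]
      have hr' := hr.ne'
      simp only [rotLaplacian_eq f hu, ang, hnorm θ, map_smul, smul_apply, smul_eq_mul]
      field_simp
    rw [e] at he
    linear_combination (ev p θ) * he
  have hrs : Continuous fun θ : sphere (0 : Euc n) 1 => r • (θ : Euc n) :=
    continuous_subtype_val.const_smul r
  have hg : ContDiff ℝ 2 fun y => u (r • y) := hu.comp (contDiff_id.const_smul r)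
  have hcp : Continuous fun θ : sphere (0 : Euc n) 1 => ev p (θ : Euc n) :=
    (contDiff_ev p (k := 0)).continuous.comp continuous_subtype_val
  have hA : Continuous fun θ : sphere (0 : Euc n) 1 => ang (fun y => u (r • y)) (θ : Euc n) := by
    have h1 : ContDiff ℝ 1 (fderiv ℝ (fun y => u (r • y))) := hg.fderiv_right le_rfl
    have h2 := h1.continuous_fderiv one_ne_zero
    have hc : Continuous (ang fun y => u (r • y)) :=
      (((continuous_norm.pow 2).mul (continuous_finsetSum _ fun i _ =>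
        (h2.clm_apply continuous_const).clm_apply continuous_const)).sub
          ((h2.clm_apply continuous_id).clm_apply continuous_id)).sub
        (continuous_const.mul (h1.continuous.clm_apply continuous_id))
    exact hc.comp continuous_subtype_val
  have hB : Continuous fun θ : sphere (0 : Euc n) 1 => fderiv ℝ u (r • (θ : Euc n)) θ :=
    ((hu.continuous_fderiv two_ne_zero).comp hrs).clm_apply continuous_subtype_val
  have iA : Integrable (fun θ : sphere (0 : Euc n) 1 =>
      ang (fun y => u (r • y)) (θ : Euc n) * ev p θ) (sph n) := integrable_sph (hA.mul hcp)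
  have iB : Integrable (fun θ : sphere (0 : Euc n) 1 =>
      fderiv ℝ u (r • (θ : Euc n)) θ * ev p θ) (sph n) := integrable_sph (hB.mul hcp)
  rw [integral_congr_ae (Eventually.of_forall hpt),
    integral_add (iA.const_mul _) (iB.const_mul _),
    integral_const_mul, integral_const_mul, integral_ang_mul hg h hp]
  simp only [mom, momDeriv]
  ring

theorem continuous_mom {u : Euc n → ℝ} (hu : ContDiff ℝ 2 u) (p : MvPolynomial (Fin n) ℝ) :
    Continuous (mom u p) :=
  continuous_iff_continuousAt.mpr fun r => (hasDerivAt_mom hu p r).continuousAt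

theorem mode_mom {m : ℕ} {f : ℝ → ℝ} {u : Euc (m + 2) → ℝ} (hu : ContDiff ℝ 2 u)
    (hu' : ∀ x, x ≠ 0 → rotLaplacian f u x = 0) {p : MvPolynomial (Fin (m + 2)) ℝ} {l : ℕ}
    (h : p.IsHomogeneous l) (hp : lap p = 0) : Mode f m l (mom u p) (momDeriv u p) where
  deriv_a r _ := hasDerivAt_mom hu p r
  deriv_b r hr := by
    refine (hasDerivAt_momDeriv hu p r).congr_deriv ?_
    rw [mom_equation hu hu' h hp hr]
    push_cast
    ring
  lim_a := ⟨mom u p 0, ((continuous_mom hu p).tendsto 0).mono_left nhdsWithin_le_nhds, fun hl => by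
    simp [mom, integral_const_mul, integral_ev_eq_zero (by omega) h hp hl]⟩
  bdd_b := by
    obtain ⟨B, hB⟩ := (isCompact_Icc (a := (0 : ℝ)) (b := 1)).exists_bound_of_continuousOn
      (continuous_iff_continuousAt.mpr fun r =>
        (hasDerivAt_momDeriv hu p r).continuousAt).continuousOn
    exact ⟨B, fun r hr => hB r ⟨hr.1.le, hr.2⟩⟩

theorem abs_mom_le {u : Euc n → ℝ} {C d : ℝ} (hC : ∀ x, |u x| ≤ C * (1 + ‖x‖) ^ d)
    (p : MvPolynomial (Fin n) ℝ) {r : ℝ} (hr : 0 < r) :
    |mom u p r| ≤ C * (∫ θ, |ev p (θ : Euc n)| ∂sph n) * (1 + r) ^ d := by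
  have hp : Continuous fun θ : sphere (0 : Euc n) 1 => |ev p (θ : Euc n)| :=
    ((contDiff_ev p (k := 0)).continuous.comp continuous_subtype_val).abs
  have h := norm_integral_le_of_norm_le ((integrable_sph hp).const_mul (C * (1 + r) ^ d))
    (f := fun θ : sphere (0 : Euc n) 1 => u (r • (θ : Euc n)) * ev p θ)
    (Eventually.of_forall fun θ => by
      rw [norm_mul]
      refine mul_le_mul_of_nonneg_right ?_ (norm_nonneg _)
      have := hC (r • (θ : Euc n))
      simpa [norm_smul, abs_of_pos hr] using this)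
  rw [integral_const_mul] at h
  simp only [Real.norm_eq_abs] at h
  rw [show mom u p r = ∫ θ, u (r • (θ : Euc n)) * ev p θ ∂sph n from rfl]
  linarith

theorem ev_monomial_smul (d : Fin n →₀ ℕ) (c : ℝ) :
    (MvPolynomial.monomial d c : MvPolynomial (Fin n) ℝ) = c • MvPolynomial.monomial d 1 := by
  simp [MvPolynomial.smul_monomial]

/-- Moments as a linear map in the polynomial. -/
noncomputable def momLin {u : Euc n → ℝ} (hu : Continuous u) (r : ℝ) :
    MvPolynomial (Fin n) ℝ →ₗ[ℝ] ℝ where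
  toFun p := mom u p r
  map_add' p q := by
    have hp : ∀ p : MvPolynomial (Fin n) ℝ, Integrable
        (fun θ : sphere (0 : Euc n) 1 => u (r • (θ : Euc n)) * ev p θ) (sph n) := fun p =>
      integrable_sph ((hu.comp (continuous_subtype_val.const_smul r)).mul
        ((contDiff_ev p (k := 0)).continuous.comp continuous_subtype_val))
    simp only [mom]
    rw [← integral_add (hp p) (hp q)]
    simp [ev, mul_add]
  map_smul' c p := by
    simp only [mom, RingHom.id_apply, smul_eq_mul]
    rw [← integral_const_mul]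
    simp [ev, mul_left_comm]

theorem mom_sq_pow_mul (u : Euc n → ℝ) (p : MvPolynomial (Fin n) ℝ) (i : ℕ) (r : ℝ) :
    mom u (sq n ^ i * p) r = mom u p r := by
  refine integral_congr_ae (Eventually.of_forall fun θ => ?_)
  have h1 : ev (sq n) (θ : Euc n) = 1 := by
    have : ev (sq n) (θ : Euc n) = ‖(θ : Euc n)‖ ^ 2 := by
      rw [norm_sq_eq]; simp [ev, sq]
    rw [this]; simp
  simp only [ev] at h1
  simp [ev, h1]

/-- The monomials of degrees `k` and `k - 1`. -/
noncomputable def basisPoly (n k : ℕ) :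
    Sym (Fin n) k ⊕ Sym (Fin n) (k - 1) → MvPolynomial (Fin n) ℝ :=
  Sum.elim (fun s => MvPolynomial.monomial (Multiset.toFinsupp (s : Multiset (Fin n))) 1)
    (fun s => MvPolynomial.monomial (Multiset.toFinsupp (s : Multiset (Fin n))) 1)

theorem momLin_eq_zero_of_degree {j : ℕ} {p : MvPolynomial (Fin n) ℝ} (hp : p.IsHomogeneous j)
    (L : MvPolynomial (Fin n) ℝ →ₗ[ℝ] ℝ)
    (h : ∀ s : Sym (Fin n) j,
      L (MvPolynomial.monomial (Multiset.toFinsupp (s : Multiset (Fin n))) 1) = 0) : L p = 0 := by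
  rw [p.as_sum, map_sum]
  refine Finset.sum_eq_zero fun d hd => ?_
  have hdeg : Multiset.card (Finsupp.toMultiset d) = j := by
    have h1 := hp (MvPolynomial.mem_support_iff.mp hd)
    simpa [Finsupp.card_toMultiset, Finsupp.weight_apply, Finsupp.sum] using h1
  have h2 := h ⟨Finsupp.toMultiset d, hdeg⟩
  rw [Sym.coe_mk, Finsupp.toMultiset_toFinsupp] at h2
  rw [ev_monomial_smul, map_smul, h2, smul_zero]

theorem mom_eq_zero_of_basis {u : Euc n → ℝ} (hu : Continuous u) {k j : ℕ} (hj : j ≤ k) {r : ℝ}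
    (h : ∀ s, mom u (basisPoly n k s) r = 0) {p : MvPolynomial (Fin n) ℝ}
    (hp : p.IsHomogeneous j) : mom u p r = 0 := by
  set i := (k - j) / 2
  have hq := (isHomogeneous_sq_pow (n := n) i).mul hp
  rw [← mom_sq_pow_mul u p i r]
  rcases (show 2 * i + j = k ∨ 2 * i + j = k - 1 by omega) with he | he <;> rw [he] at hq
  · exact momLin_eq_zero_of_degree hq (momLin hu r) fun s => h (Sum.inl s)
  · exact momLin_eq_zero_of_degree hq (momLin hu r) fun s => h (Sum.inr s)

theorem mom_eq_zero_all (hn : 1 ≤ n) {u : Euc n → ℝ} (hu : Continuous u) {r : ℝ}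
    (h : ∀ (l : ℕ) (p : MvPolynomial (Fin n) ℝ), p.IsHomogeneous l → lap p = 0 → mom u p r = 0)
    (p : MvPolynomial (Fin n) ℝ) : mom u p r = 0 := by
  have hom : ∀ (l : ℕ) (q : MvPolynomial (Fin n) ℝ), q.IsHomogeneous l → mom u q r = 0 := by
    intro l
    induction l using Nat.strong_induction_on with
    | _ l ih =>
        intro q hq
        rcases lt_or_ge l 2 with hl | hl
        · exact h l q hq (lap_eq_zero_of_lt hq hl)
        · obtain ⟨j, rfl⟩ := Nat.exists_eq_add_of_le' hl
          obtain ⟨q', hq', hlap⟩ := harmonic_split hn hq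
          have h2 : (sq n * q').IsHomogeneous (j + 2) := by
            have := isHomogeneous_sq.mul hq'
            rwa [add_comm] at this
          have h1 := h (j + 2) _ (hq.sub h2) hlap
          have h3 : mom u (sq n * q') r = 0 := by
            have := mom_sq_pow_mul u q' 1 r
            rw [pow_one] at this
            rw [this]; exact ih j (by omega) q' hq'
          change momLin hu r (q - sq n * q') = 0 at h1
          change momLin hu r (sq n * q') = 0 at h3
          rw [map_sub, h3, sub_zero] at h1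
          exact h1
  change momLin hu r p = 0
  rw [← MvPolynomial.sum_homogeneousComponent p, map_sum]
  exact Finset.sum_eq_zero fun l _ =>
    hom l _ (MvPolynomial.homogeneousComponent_isHomogeneous l p)

theorem eq_zero_of_mom {u : Euc n → ℝ} (hu : Continuous u) {r : ℝ}
    (h : ∀ p, mom u p r = 0) (θ : sphere (0 : Euc n) 1) : u (r • (θ : Euc n)) = 0 := by
  have : CompactSpace (sphere (0 : Euc n) 1) :=
    isCompact_iff_compactSpace.mp (isCompact_sphere _ _)
  set coord : Fin n → C(sphere (0 : Euc n) 1, ℝ) := fun i =>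
    ⟨fun θ => (θ : Euc n) i, (PiLp.continuous_apply 2 _ i).comp continuous_subtype_val⟩
  set φ : MvPolynomial (Fin n) ℝ →ₐ[ℝ] C(sphere (0 : Euc n) 1, ℝ) := MvPolynomial.aeval coord
  have hφ : ∀ p θ, φ p θ = ev p (θ : Euc n) := by
    intro p θ
    induction p using MvPolynomial.induction_on with
    | C a => simp [φ, ev]
    | add p q hp hq => simp [ev] at hp hq; simp [map_add, ev, hp, hq]
    | mul_X p i hp => simp [ev] at hp; simp [map_mul, ev, hp, φ, coord]
  have hsep : φ.range.SeparatesPoints := by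
    intro a b hab
    obtain ⟨i, hi⟩ : ∃ i, (a : Euc n) i ≠ (b : Euc n) i := by
      by_contra hc
      push Not at hc
      exact hab (Subtype.ext (PiLp.ext hc))
    refine ⟨_, ⟨φ (MvPolynomial.X i), ⟨MvPolynomial.X i, rfl⟩, rfl⟩, ?_⟩
    dsimp only
    rw [hφ, hφ]
    simpa [ev] using hi
  set g : sphere (0 : Euc n) 1 → ℝ := fun θ => u (r • (θ : Euc n))
  have hg : Continuous g := hu.comp (continuous_subtype_val.const_smul r)
  have key : ∫ θ, g θ * g θ ∂sph n = 0 := by
    refine le_antisymm ?_ (integral_nonneg fun θ => mul_self_nonneg _)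
    refine le_of_forall_pos_le_add fun ε hε => ?_
    set M := ∫ θ, |g θ| ∂sph n
    have hM : 0 ≤ M := integral_nonneg fun θ => abs_nonneg _
    obtain ⟨⟨q, p, rfl⟩, hp⟩ := ContinuousMap.exists_mem_subalgebra_near_continuous_of_separatesPoints φ.range
      hsep g hg (ε / (M + 1)) (by positivity)
    have hcp : Continuous fun θ => φ p θ := (φ p).continuous
    have h0 : ∫ θ, g θ * φ p θ ∂sph n = 0 := by
      simp only [hφ]; exact h p
    have h1 : Integrable (fun θ => g θ * φ p θ) (sph n) := integrable_sph (hg.mul hcp)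
    have h2 : Integrable (fun θ => g θ * g θ) (sph n) := integrable_sph (hg.mul hg)
    calc ∫ θ, g θ * g θ ∂sph n = ∫ θ, (g θ * g θ - g θ * φ p θ) ∂sph n := by
          rw [integral_sub h2 h1, h0, sub_zero]
      _ ≤ ∫ θ, ε / (M + 1) * |g θ| ∂sph n := by
          refine integral_mono (h2.sub h1) ((integrable_sph hg.abs).const_mul _) fun θ => ?_
          calc g θ * g θ - g θ * φ p θ = g θ * (g θ - φ p θ) := by ring
            _ ≤ |g θ| * |g θ - φ p θ| := (le_abs_self _).trans (abs_mul _ _).le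
            _ ≤ |g θ| * (ε / (M + 1)) := by
                refine mul_le_mul_of_nonneg_left ?_ (abs_nonneg _)
                have := (hp θ).le
                rwa [Real.norm_eq_abs, abs_sub_comm] at this
            _ = ε / (M + 1) * |g θ| := by ring
      _ = ε / (M + 1) * M := integral_const_mul _ _
      _ ≤ ε := by
          rw [div_mul_eq_mul_div, div_le_iff₀ (by linarith)]
          nlinarith
      _ = 0 + ε := (zero_add ε).symm
  have hae := (integral_eq_zero_iff_of_nonneg (fun θ => mul_self_nonneg _)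
    (integrable_sph (hg.mul hg))).mp key
  have : (sph n).IsOpenPosMeasure := by unfold sph; infer_instance
  have := congrFun ((hg.mul hg).ae_eq_iff_eq (sph n) continuous_const |>.mp hae) θ
  exact mul_self_eq_zero.mp this

theorem card_le_of_linearIndependent {m : ℕ} {f : ℝ → ℝ} (hf : Warping f) {k : ℕ} {d : ℝ}
    (hd : d < (k : ℝ) + 1) {N : ℕ} {u : Fin N → Euc (m + 2) → ℝ}
    (hu : ∀ i, u i ∈ growthHarmonic (m + 2) f d) (hli : LinearIndependent ℝ u) :
    N ≤ Fintype.card (Sym (Fin (m + 2)) k ⊕ Sym (Fin (m + 2)) (k - 1)) := by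
  set T : (Fin N → ℝ) →ₗ[ℝ] (Euc (m + 2) → ℝ) := Fintype.linearCombination ℝ u
  have hT : Function.Injective T := hli.fintypeLinearCombination_injective
  have hmem : ∀ c, T c ∈ growthHarmonic (m + 2) f d := fun c => by
    simp only [T, Fintype.linearCombination_apply]
    exact Submodule.sum_mem _ fun i _ => Submodule.smul_mem _ _ (hu i)
  set Φ : MvPolynomial (Fin (m + 2)) ℝ → ℝ → ((Fin N → ℝ) →ₗ[ℝ] ℝ) :=
    fun p r => ∑ i, mom (u i) p r • LinearMap.proj i
  have hΦ : ∀ p r c, Φ p r c = mom (T c) p r := by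
    intro p r c
    simp only [Φ, T, mom, LinearMap.sum_apply, LinearMap.smul_apply, LinearMap.proj_apply,
      smul_eq_mul, Fintype.linearCombination_apply, Finset.sum_apply, Pi.smul_apply,
      Finset.sum_mul]
    have hi : ∀ i ∈ (Finset.univ : Finset (Fin N)), Integrable (fun θ : sphere (0 : Euc (m + 2)) 1 =>
        c i * u i (r • (θ : Euc (m + 2))) * ev p θ) (sph (m + 2)) := fun i _ =>
      integrable_sph ((continuous_const.mul
        ((hu i).1.continuous.comp (continuous_subtype_val.const_smul r))).mul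
          ((contDiff_ev p (k := 0)).continuous.comp continuous_subtype_val))
    rw [integral_finsetSum _ hi]
    refine Finset.sum_congr rfl fun i _ => ?_
    rw [← integral_mul_const]
    exact integral_congr_ae (Eventually.of_forall fun θ => by ring)
  set W : ℕ → Submodule ℝ (Fin N → ℝ) := fun j =>
    ⨅ (l : ℕ) (_ : l ≤ k) (p : MvPolynomial (Fin (m + 2)) ℝ) (_ : p.IsHomogeneous l)
      (_ : lap p = 0) (r : ℝ) (_ : 0 < r) (_ : r ≤ (j : ℝ) + 1), LinearMap.ker (Φ p r)
  have hW : ∀ j c, c ∈ W j ↔ ∀ l ≤ k, ∀ p : MvPolynomial (Fin (m + 2)) ℝ, p.IsHomogeneous l →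
      lap p = 0 → ∀ r : ℝ, 0 < r → r ≤ (j : ℝ) + 1 → mom (T c) p r = 0 := by
    intro j c
    simp [W, hΦ]
  have hanti : Antitone W := fun i j hij c hc => by
    rw [hW] at hc ⊢
    exact fun l hl p h1 h2 r hr hr' =>
      hc l hl p h1 h2 r hr (hr'.trans (by gcongr))
  obtain ⟨J, hJ⟩ := IsArtinian.monotone_stabilizes
    (⟨fun j => OrderDual.toDual (W j), fun i j hij => hanti hij⟩ :
      ℕ →o (Submodule ℝ (Fin N → ℝ))ᵒᵈ)
  by_contra hN
  push Not at hN
  set L : (Fin N → ℝ) →ₗ[ℝ] (Sym (Fin (m + 2)) k ⊕ Sym (Fin (m + 2)) (k - 1) → ℝ) :=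
    LinearMap.pi fun s => Φ (basisPoly (m + 2) k s) ((J : ℝ) + 1)
  obtain ⟨c, hc, hc0⟩ : ∃ c, L c = 0 ∧ c ≠ 0 := by
    by_contra hne
    push Not at hne
    have hinj : Function.Injective L := (injective_iff_map_eq_zero L).mpr hne
    have := LinearMap.finrank_le_finrank_of_injective hinj
    simp only [Module.finrank_fintype_fun_eq_card, Fintype.card_fin] at this
    omega
  have hcJ : c ∈ W J := by
    rw [hW]
    intro l hl p h1 h2 r hr hr'
    have hmode := mode_mom (hmem c).1 (hmem c).2.1 h1 h2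
    refine hmode.eq_zero_of_root hf hr hr' ?_
    refine mom_eq_zero_of_basis (hmem c).1.continuous hl (fun s => ?_) h1
    rw [← hΦ]
    exact congrFun hc s
  have hcall : ∀ j, c ∈ W j := by
    intro j
    rcases le_total J j with h | h
    · have e : W J = W j := hJ j h
      exact e ▸ hcJ
    · exact hanti h hcJ
  refine hc0 (hT ?_)
  rw [map_zero]
  have hcont := (hmem c).1.continuous
  have hz : ∀ x, x ≠ 0 → T c x = 0 := by
    intro x hx
    have hr : 0 < ‖x‖ := norm_pos_iff.mpr hx
    have hall : ∀ p, mom (T c) p ‖x‖ = 0 := by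
      refine mom_eq_zero_all (by omega) hcont fun l p h1 h2 => ?_
      rcases le_or_gt l k with hl | hl
      · obtain ⟨j, hj⟩ := exists_nat_ge ‖x‖
        exact (hW j c).mp (hcall j) l hl p h1 h2 _ hr (by linarith)
      · obtain ⟨C, hC⟩ := (hmem c).2.2
        have hmode := mode_mom (hmem c).1 (hmem c).2.1 h1 h2
        refine hmode.eq_zero_of_growth hf (lt_of_lt_of_le hd ?_) (fun t ht => abs_mom_le hC p ht) hr
        exact_mod_cast hl
    have hθ : ‖x‖⁻¹ • x ∈ sphere (0 : Euc (m + 2)) 1 := by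
      simp [norm_smul, hr.ne']
    have := eq_zero_of_mom hcont hall ⟨_, hθ⟩
    simpa [smul_smul, hr.ne'] using this
  exact Continuous.ext_on (dense_compl_singleton (0 : Euc (m + 2))) hcont continuous_const
    fun x hx => hz x hx

theorem growthHarmonic_bound {n : ℕ} (hn : 2 ≤ n) {f : ℝ → ℝ} (hf : Warping f) {k : ℕ}
    (hk : 1 ≤ k) {d : ℝ} (hd : d < (k : ℝ) + 1) :
    FiniteDimensional ℝ (growthHarmonic n f d) ∧
      Module.finrank ℝ (growthHarmonic n f d)
        ≤ (n + k - 1).choose k + (n + k - 2).choose (k - 1) := by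
  obtain ⟨m, rfl⟩ := Nat.exists_eq_add_of_le' hn
  set B := (m + 2 + k - 1).choose k + (m + 2 + k - 2).choose (k - 1)
  have hB : Fintype.card (Sym (Fin (m + 2)) k ⊕ Sym (Fin (m + 2)) (k - 1)) = B := by
    rw [Fintype.card_sum, Sym.card_sym_eq_choose, Sym.card_sym_eq_choose, Fintype.card_fin]
    congr 2
    omega
  have hr : Module.rank ℝ (growthHarmonic (m + 2) f d) ≤ (B : Cardinal) := by
    refine rank_le fun s hs => ?_
    rw [← hB]
    refine card_le_of_linearIndependent hf hd (N := s.card)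
      (u := fun i => ((s.equivFin.symm i : growthHarmonic (m + 2) f d) : Euc (m + 2) → ℝ))
      (fun i => (s.equivFin.symm i : growthHarmonic (m + 2) f d).2) ?_
    exact (hs.comp _ s.equivFin.symm.injective).map' (growthHarmonic (m + 2) f d).subtype
      (Submodule.ker_subtype _)
  have hfin : FiniteDimensional ℝ (growthHarmonic (m + 2) f d) :=
    Module.rank_lt_aleph0_iff.mp (hr.trans_lt Cardinal.natCast_lt_aleph0)
  refine ⟨hfin, ?_⟩
  exact Module.finrank_le_of_rank_le hr

theorem warping_of_concave {f : ℝ → ℝ} (hf : ContDiff ℝ 2 f) (h0 : f 0 = 0) (h1 : deriv f 0 = 1)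
    (hpos : ∀ r, 0 < r → 0 < f r) (hc : ∀ r, 0 ≤ r → deriv (deriv f) r ≤ 0) : Warping f := by
  have hd : Differentiable ℝ (deriv f) :=
    ((contDiff_succ_iff_deriv (n := 1)).mp hf).2.2.differentiable one_ne_zero
  have hanti : AntitoneOn (deriv f) (Ici 0) :=
    antitoneOn_of_deriv_nonpos (convex_Ici 0) hd.continuous.continuousOn hd.differentiableOn
      fun x hx => hc x (interior_subset hx)
  refine ⟨(hf.differentiable two_ne_zero).differentiableOn, hpos,
    fun r hr => h1 ▸ hanti self_mem_Ici hr.le hr.le, ?_⟩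
  simpa [h0] using (hf.continuous.tendsto 0).mono_left nhdsWithin_le_nhds

end Vale.Agent.P225
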